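import Mathlib

/-!
Definitions for the periodic hard-sphere Boltzmann equation and its renormalized entropy
solutions.
-/

namespace Vale.Agent.P140

open MeasureTheory Set
open scoped ENNReal

noncomputable section

/-- Velocity space. -/
abbrev E : Type := EuclideanSpace ℝ (Fin 3)

/-- The torus ℝ³/ℤ³ (Haar probability measure). -/
abbrev T3 : Type := Fin 3 → UnitAddCircle

/-- Phase space Ω = T³ × ℝ³. -/
abbrev Om : Type := T3 × E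

/-- The unit sphere. -/
abbrev S2 : Type := Metric.sphere (0 : E) 1

/-- Surface measure on the unit sphere (total mass 4π). -/
def sph : Measure S2 := (volume : Measure E).toSphere

/-- The projection ℝ³ → T³. -/
def pr (x : E) : T3 := fun i => (x i : UnitAddCircle)

/-- Free flight (x, v) ↦ (x + s v, v). -/
def fl (s : ℝ) (p : Om) : Om := (p.1 + pr (s • p.2), p.2)

/-- a = (v - v_*) · ω. -/
def cf (v w : E) (ω : S2) : ℝ := inner ℝ (v - w) (ω : E)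

/-- v' = v - a ω. -/
def vp (v w : E) (ω : S2) : E := v - cf v w ω • (ω : E)

/-- v_*' = v_* + a ω. -/
def wp (v w : E) (ω : S2) : E := w + cf v w ω • (ω : E)

/-- The Maxwellian M. -/
def Mx (v : E) : ℝ := (2 * Real.pi) ^ (-(3 / 2 : ℝ)) * Real.exp (-‖v‖ ^ 2 / 2)

/-- The gain term Q⁺(f, f)(x, v). -/
def Qp (f : Om → ℝ) (p : Om) : ℝ≥0∞ :=
  ∫⁻ q : E × S2, ENNReal.ofReal
    (|cf p.2 q.1 q.2| * (f (p.1, vp p.2 q.1 q.2) * f (p.1, wp p.2 q.1 q.2))) ∂(volume.prod sph)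

/-- The loss term Q⁻(f, f)(x, v). -/
def Qm (f : Om → ℝ) (p : Om) : ℝ≥0∞ :=
  ∫⁻ q : E × S2, ENNReal.ofReal
    (|cf p.2 q.1 q.2| * (f (p.1, p.2) * f (p.1, q.1))) ∂(volume.prod sph)

/-- Relative entropy H_M(f). -/
def relEnt (f : Om → ℝ) : ℝ≥0∞ :=
  ∫⁻ p : Om, ENNReal.ofReal (f p * Real.log (f p / Mx p.2) - f p + Mx p.2)

open Classical in
/-- (A - B) log (A / B) with its lower semicontinuous extended value on the boundary. -/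
def jj (A B : ℝ) : ℝ≥0∞ :=
  if A = B then 0 else if A = 0 ∨ B = 0 then ⊤ else ENNReal.ofReal ((A - B) * Real.log (A / B))

/-- Entropy production D(f). -/
def diss (f : Om → ℝ) : ℝ≥0∞ :=
  (1 / 4) * ∫⁻ p : Om, ∫⁻ q : E × S2, ENNReal.ofReal |cf p.2 q.1 q.2| *
    jj (f (p.1, vp p.2 q.1 q.2) * f (p.1, wp p.2 q.1 q.2)) (f (p.1, p.2) * f (p.1, q.1))
      ∂(volume.prod sph)

/-- A datum. -/
def IsDatum (F₀ : Om → ℝ) : Prop :=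
  Measurable F₀ ∧ (∀ p, 0 ≤ F₀ p) ∧
    Integrable (fun p : Om => F₀ p * (1 + ‖p.2‖ ^ 2 + |Real.log (F₀ p)|))

/-- Lebesgue measure on [0, ∞) × Ω. -/
def tm : Measure (ℝ × Om) := (volume.restrict (Ici (0 : ℝ))).prod volume

/-- Smooth test functions on [0, ∞) × T³ × ℝ³ with compact support. -/
def IsTest (φ : ℝ → Om → ℝ) : Prop :=
  ContDiff ℝ (⊤ : ℕ∞) (fun q : ℝ × E × E => φ q.1 (pr q.2.1, q.2.2)) ∧
    ∃ R : ℝ, ∀ t p, (R < t ∨ R < ‖p.2‖) → φ t p = 0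

/-- Smooth test functions on [0, ∞) × T³ with compact support. -/
def IsTestX (χ : ℝ → T3 → ℝ) : Prop :=
  ContDiff ℝ (⊤ : ℕ∞) (fun q : ℝ × E => χ q.1 (pr q.2)) ∧ ∃ R : ℝ, ∀ t x, R < t → χ t x = 0

/-- (∂_t + v · ∇_x) φ, the derivative of φ along free flight. -/
def trans (φ : ℝ → Om → ℝ) (t : ℝ) (p : Om) : ℝ :=
  deriv (fun s : ℝ => φ (t + s) (fl s p)) 0

/-- The integrand of the weak form of (∂_t + v·∇_x)(M β(G)) = β'(G) Q(F, F). -/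
def renInt (F : ℝ → Om → ℝ) (β β' : ℝ → ℝ) (φ : ℝ → Om → ℝ) (y : ℝ × Om) : ℝ :=
  Mx y.2.2 * β (F y.1 y.2 / Mx y.2.2) * trans φ y.1 y.2 +
    β' (F y.1 y.2 / Mx y.2.2) * ((Qp (F y.1) y.2).toReal - (Qm (F y.1) y.2).toReal) * φ y.1 y.2

/-- Renormalized entropy solutions with datum F₀. -/
structure IsSol (F₀ : Om → ℝ) (F : ℝ → Om → ℝ) : Prop where
  meas : Measurable (fun y : ℝ × Om => F y.1 y.2)
  nonneg : ∀ t p, 0 ≤ F t p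
  weakCont : ∀ ψ : Om → ℝ, Measurable ψ → (∃ C : ℝ, ∀ p, |ψ p| ≤ C) →
    ContinuousOn (fun t => ∫ p, F t p * ψ p) (Ici 0)
  init : F 0 =ᵐ[volume] F₀
  bound : ∀ T : ℝ, ∃ C : ℝ, ∀ t ∈ Icc (0 : ℝ) T,
    Integrable (fun p : Om => F t p * (1 + ‖p.2‖ ^ 2 + |Real.log (F t p)|)) ∧
      ∫ p : Om, F t p * (1 + ‖p.2‖ ^ 2 + |Real.log (F t p)|) ≤ C
  gainInt : ∀ T : ℝ,
    ∫⁻ t in Icc (0 : ℝ) T, ∫⁻ p, Qp (F t) p / ENNReal.ofReal (1 + F t p / Mx p.2) < ⊤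
  lossInt : ∀ T : ℝ,
    ∫⁻ t in Icc (0 : ℝ) T, ∫⁻ p, Qm (F t) p / ENNReal.ofReal (1 + F t p / Mx p.2) < ⊤
  renorm : ∀ β β' : ℝ → ℝ, β 0 = 0 → (∀ z, 0 ≤ z → HasDerivWithinAt β (β' z) (Ici 0) z) →
    ContinuousOn β' (Ici 0) → (∃ C : ℝ, ∀ z, 0 ≤ z → |β' z| ≤ C / (1 + z)) →
    ∀ φ, IsTest φ → Integrable (renInt F β β' φ) tm ∧
      ∫ y, renInt F β β' φ y ∂tm + ∫ p : Om, Mx p.2 * β (F₀ p / Mx p.2) * φ 0 p = 0
  mass : ∀ χ, IsTestX χ →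
    Integrable (fun y : ℝ × Om => F y.1 y.2 * trans (fun t p => χ t p.1) y.1 y.2) tm ∧
      ∫ y, F y.1 y.2 * trans (fun t p => χ t p.1) y.1 y.2 ∂tm + ∫ p : Om, F₀ p * χ 0 p.1 = 0
  momentum : ∀ t, 0 ≤ t → ∫ p : Om, F t p • p.2 = ∫ p : Om, F₀ p • p.2
  energy : ∀ t, 0 ≤ t → ∫ p : Om, ‖p.2‖ ^ 2 * F t p ≤ ∫ p : Om, ‖p.2‖ ^ 2 * F₀ p
  entropy : ∀ t, 0 ≤ t → relEnt (F t) + ∫⁻ s in Icc (0 : ℝ) t, diss (F s) ≤ relEnt F₀

/-- The goal: some datum has two different renormalized entropy solutions. -/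
def Goal : Prop :=
  ∃ F₀ : Om → ℝ, IsDatum F₀ ∧ ∃ F G : ℝ → Om → ℝ, IsSol F₀ F ∧ IsSol F₀ G ∧
    ¬ (fun y : ℝ × Om => F y.1 y.2) =ᵐ[tm] (fun y : ℝ × Om => G y.1 y.2)

end

end Vale.Agent.P140
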